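import Vale.Agent.P004F.Cn.Alg

/-!
# P004F, block CNT: change of level (helper25)
-/

set_option linter.all false

open NumberField Matrix PowerSeries
open scoped Classical Pointwise

noncomputable section

namespace Vale.Agent.P004F.Cn

open Vale.Agent.P022
open Pr (ac)

namespace Mo

variable {J₀ k : ℕ}

/-- multiplication by `T ^ k` -/
def sh (J₀ k : ℕ) : Rb J₀ →ₗ[(ZMod 2)⟦X⟧] Rb (k + J₀) :=
  Submodule.mapQ _ _ (LinearMap.mulLeft _ (X ^ k)) fun x hx => by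
    obtain ⟨y, rfl⟩ := Ideal.mem_span_singleton.1 hx
    exact Ideal.mem_span_singleton.2 ⟨y, by simp [pow_add, mul_assoc]⟩

theorem sh_mk (f : (ZMod 2)⟦X⟧) :
    sh J₀ k (Ideal.Quotient.mk _ f) = Ideal.Quotient.mk _ (X ^ k * f) := rfl

theorem sh_mul (f : (ZMod 2)⟦X⟧) (y : Rb J₀) :
    sh J₀ k (Ideal.Quotient.mk _ f * y) = Ideal.Quotient.mk _ f * sh J₀ k y := by
  obtain ⟨y, rfl⟩ := Ideal.Quotient.mk_surjective y
  rw [← map_mul, sh_mk, sh_mk, ← map_mul, mul_left_comm]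

theorem sh_inj : Function.Injective (sh J₀ k) := (injective_iff_map_eq_zero _).2 fun y h => by
  obtain ⟨y, rfl⟩ := Ideal.Quotient.mk_surjective y
  rw [sh_mk, hk, pow_add, mul_dvd_mul_iff_left (pow_ne_zero _ X_prime.ne_zero)] at h
  exact (hk _ _).2 h

end Mo

open Mo in
theorem mono {e : Crv} (b : Fld e) {J₀ J : ℕ} (c : ℕ) (χ : GQ → ℕ) (h : J₀ ≤ J)
    (f : (b.Z0 J c χ).Finite) : Nat.card (b.Z0 J₀ c χ) ≤ Nat.card (b.Z0 J c χ) := by
  obtain ⟨k, rfl⟩ := Nat.exists_eq_add_of_le' h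
  have := f.to_subtype
  have z : ∀ {y : Fin 2 → Rb J₀}, y = 0 → sh J₀ k ∘ y = 0 := fun e => by
    rw [e]; exact funext fun _ => map_zero _
  have a : ∀ J g i j, b.ab J χ g i j =
      Ideal.Quotient.mk _ ((1 + X) ^ χ g * C (PadicInt.toZMod (e.r g i j))) := fun J g i j => by
    rw [map_mul, map_pow]; rfl
  refine Nat.card_le_card_of_injective (fun x => ⟨fun g => sh J₀ k ∘ x.1 g, ⟨fun g m j n => ?_,
    fun g m => z (x.2.1.out g m), x.2.1.lc.imp fun W p => ⟨p.1, fun w m => z (p.2 w m)⟩,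
    fun g m => z (x.2.1.unr g m)⟩, fun g m => z (x.2.2 g m)⟩) fun x y e => Subtype.ext
      (funext fun g => funext fun i => sh_inj (congrFun (congrFun (Subtype.mk.inj e) g) i))
  rw [x.2.1.coc g m j n]
  funext i
  simp only [Function.comp, Pi.add_apply, ac, map_add, map_sum, smul_eq_mul, a, sh_mul]

end Vale.Agent.P004F.Cn
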