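import Vale.Agent.P004F.Cn.One
import Vale.Agent.P004F.Cn.Mono
import Vale.Agent.P004F.Ra.Lv

/-!
# P004F, block CNT: step one and the assembly (helper25)
-/

set_option linter.all false

open NumberField Matrix PowerSeries
open scoped Classical Pointwise

noncomputable section

namespace Vale.Agent.P004F.Cn

open Vale.Agent.P022 Vale.Agent.P022K
open Vale.Agent.P004K (RC1 RC2 Hc)
open Vale.Agent.P027M.S (Inert)
open Vale.Agent.P022D.W (dec inP_le_dec phi_mem)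
open Vale.Agent.P022E.GW (Ov Fb Gn)
open Pr (ac Gd)

namespace Hd

variable {e : Crv} {b : Fld e} {J n c l : ℕ} {χ : GQ → ℕ} {g : GQ} {P : Ideal (𝓞 Qb)}

theorem sm {R : Type} [CommRing R] (x y : R) (A B : M2 R) : (x * y) • (A * B) = x • A * y • B := by
  rw [Matrix.smul_mul, Matrix.mul_smul, smul_smul]

theorem loc (h : 0 < J) : IsLocalRing (Rb J) :=
  have : Nontrivial (Rb J) := nontrivial_of_ne (Ideal.Quotient.mk _ 1) 0 fun k => by
    have := (hk J 1).1 k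
    rw [← pow_zero X, pow_dvd_pow_iff X_prime.ne_zero X_prime.not_isUnit] at this
    omega
  .of_surjective' _ Ideal.Quotient.mk_surjective

/-- the residue map -/
def pi (h : 0 < J) : Rb J →+* ZMod 2 := Ideal.Quotient.lift _ constantCoeff fun x m =>
  X_dvd_iff.1 ((dvd_pow_self X h.ne').trans (Ideal.mem_span_singleton.1 m))

theorem ab_eq (g : GQ) :
    b.ab J χ g = (1 + tt J) ^ χ g • ((e.r g).map PadicInt.toZMod).map (k0 J) := by
  rw [Fld.ab, map_add, map_one]; rfl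

theorem ab_pi (h : 0 < J) (g : GQ) : (b.ab J χ g).map (pi h) = (e.r g).map PadicInt.toZMod := by
  ext i j
  simp [Fld.ab, pi, cb]

theorem pw (hJ : J ≤ 2 ^ n) {x y : ℕ} (h : x ≡ y [MOD 2 ^ n]) : (1 + tt J) ^ x = (1 + tt J) ^ y := by
  rw [pow_eq_pow_mod x (pow_one_of hJ), h, ← pow_eq_pow_mod y (pow_one_of hJ)]

theorem ab_sc (h : (e.r g).map PadicInt.toZMod = 1) : b.ab J χ g = (1 + tt J) ^ χ g • 1 := by
  rw [ab_eq, h, Matrix.map_one _ (map_zero _) (map_one _)]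

theorem ab_one (hJ : J ≤ 2 ^ n) (a : b.Ad n c χ) (m : g ∈ Hc b.j c)
    (h : (e.r g).map PadicInt.toZMod = 1) : b.ab J χ g = 1 := by
  rw [ab_sc h, pw hJ ((Nat.modEq_zero_iff_dvd).2 (a.ker g m)), pow_zero, one_smul]

theorem ab_unr (r2 : RC2) (hJ : J ≤ 2 ^ n) (a : b.Ad n c χ) (c0 : 0 < c) (o : Ov l P)
    (hl : l ∉ b.T c) (m : g ∈ b.Γ) (i : Inert P g) : b.ab J χ g = 1 :=
  ab_one hJ a (Ra.unr_hc r2 b.iq c0 o (fun d => hl (Finset.mem_union_right _
    (Nat.mem_primeFactors.2 ⟨o.1, d, c0.ne'⟩))) m i) (by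
      rw [Ra.r_inert o (fun k => hl (Finset.mem_union_left _ (List.mem_toFinset.2 k))) i,
        Matrix.map_one _ (map_zero _) (map_one _)])

theorem gd (r1 : RC1) (r2 : RC2) (hJ : J ≤ 2 ^ n) (a : b.Ad n c χ) (c0 : 0 < c) {T : Finset ℕ}
    (le : b.T c ⊆ T) (pr : ∀ l ∈ T, l.Prime) : Gd b.Γ T (b.ab J χ) where
  opn := H916.isOpen_GK _
  idx := Ra.gk_idx b.iq b.cc
  cx := Ra.gk_cx b.iq
  two := le (Finset.mem_union_left _ (List.mem_toFinset.2 e.two))
  pr := pr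
  one := ab_one hJ a (one_mem _) (by rw [map_one, Matrix.map_one _ (map_zero _) (map_one _)])
  mul g m h m' := by
    rw [ab_eq, ab_eq, ab_eq, pw hJ (a.add g m h m'), pow_add, map_mul, Matrix.map_mul,
      Matrix.map_mul]
    exact sm ..
  lc := by
    let f : GQ →* M2 (ZMod 2) := (RingHom.mapMatrix PadicInt.toZMod).toMonoidHom.comp e.r
    refine ⟨Hc b.j c ⊓ f.ker, (r1 _ _ b.iq c c0).2.1.inter (Subgroup.isOpen_of_mem_nhds _ (g := 1) ?_),
      fun w _ m => ab_one hJ a m.1 m.2⟩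
    have : ∀ i i', ∀ᶠ g in nhds 1, PadicInt.toZMod ((e.r g - 1) i i') = 0 := fun i i' => by
      have c : Continuous fun g => e.r g i i' := P004M.TE.cont_mt _ i i'
      filter_upwards [c.continuousAt (x := 1) (Metric.ball_mem_nhds _ one_pos)] with g hg
      rw [Set.mem_preimage, map_one, mem_ball_iff_norm] at hg
      rwa [← RingHom.mem_ker, PadicInt.ker_toZMod, IsLocalRing.mem_maximalIdeal,
        PadicInt.mem_nonunits]
    filter_upwards [Filter.eventually_all.2 fun i => Filter.eventually_all.2 (this i)] with g hg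
    refine sub_eq_zero.1 ?_
    rw [← map_one (RingHom.mapMatrix (m := Fin 2) (PadicInt.toZMod (p := 2)))]
    exact (map_sub (RingHom.mapMatrix PadicInt.toZMod) _ _).symm.trans (Matrix.ext hg)
  unr g m := fun ⟨l, hl, P, o, i⟩ => ab_unr r2 hJ a c0 o (fun k => hl (le k)) m i

end Hd

open Hd

/-- **step one** -/
theorem one (r1 : RC1) (r2 : RC2) (hp : PRESN) (hl : LOCT) {e : Crv} (b : Fld e)
    {m n c q v B J : ℕ} {χ : GQ → ℕ} (t : b.Tw m n c χ) (x : b.Xq c χ q v) (hJ : J ≤ 2 ^ n)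
    (hB : B + 4 * 2 ^ v < J) : (b.Z0 J c χ).Finite ∧ (Nat.card (b.Z0 J c χ) ≤ 2 ^ B →
      Nat.card (b.Z0 J (c * q) χ) = Nat.card (b.Z0 J c χ) * 2 ^ (4 * 2 ^ v)) := by
  have J0 : 0 < J := by omega
  have := loc J0
  have c0 : 0 < c := one_pos.trans t.one
  have hT : ∀ l, l ∈ b.T (c * q) ↔ l ∈ b.T c ∨ l = q := fun l => by
    simp only [Fld.T, Nat.primeFactors_mul c0.ne' x.pr.ne_zero, x.pr.primeFactors, Finset.mem_union,
      Finset.mem_singleton, or_assoc]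
  have mS : ∀ {s}, s ∈ e.S → s ∈ b.T c := fun k =>
    Finset.mem_union_left _ (List.mem_toFinset.2 k)
  obtain ⟨f, k⟩ := one0 hp hl (B := B) (e := 2 ^ v) (pi J0) (gd r1 r2 hJ t.toAd c0
    (fun l k => (hT l).2 (.inl k)) fun l => Ra.T_prime) (e.ov 2 e.two) (b.le 2 e.two) (Ra.c_out b)
    x.pr (fun k => x.out (k ▸ mS e.two)) hT x.out x.spl
    (fun P o g i => ab_unr r2 hJ t.toAd c0 o x.out (x.spl P o (inP_le_dec i)) i)
    (fun P o g i => (one_add_pow (x.val P o g i).1 (x.val P o g i).2).imp fun ε k => ⟨k.1, by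
      rw [ab_sc (x.res P o g (phi_mem o.1 o.2.1 i)), ← k.2, sub_smul, one_smul]⟩)
    (e.aux.imp fun s k => ⟨mS k.1, k.2.1, _, e.ov s k.1, b.le s k.1, fun g i =>
      (ab_pi J0 g).trans (k.2.2 g i)⟩) hB
  exact ⟨f.subset fun y ⟨Y, y0⟩ => ⟨⟨Y.coc, Y.out, Y.lc, fun j ⟨l, n, i⟩ =>
    Y.unr j ⟨l, fun m => n ((hT l).2 (.inl m)), i⟩⟩, y0⟩, k⟩

/-- step two as a statement -/
def TWO : Prop := ∀ (e : Crv) (b : Fld e) m n c χ q v B J, b.Tw m n c χ → b.Xq c χ q v →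
  J ≤ 2 ^ n → B < J → Nat.card (b.Z0 J (c * q) χ) ≤ 2 ^ B →
  Nat.card (b.Z1 J (c * q) χ) = Nat.card (b.Z0 J (c * q) χ)

theorem cnt0 (r1 : RC1) (r2 : RC2) (hp : PRESN) (hl : LOCT) (h2 : TWO) : CNT := by
  intro e b m n c χ q v B J J₀ t x hJ h0 hB h
  obtain ⟨f, k⟩ := one r1 r2 hp hl b t x hJ hB
  have u : Nat.card (b.Z0 J (c * q) χ) ≤ 2 ^ (B + 4 * 2 ^ v) := by
    rw [k h, pow_add]
    exact Nat.mul_le_mul_right _ h
  rw [h2 e b m n c χ q v _ J t x hJ hB u]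
  exact ⟨(Nat.mul_le_mul_right _ (mono b c χ h0 f)).trans (k h).ge, u⟩

end Vale.Agent.P004F.Cn
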