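import Vale.Agent.P004F.Cn.Bas
import Vale.Agent.P004F.Cn.Cnt0

/-! # P004F, row CNT: the strict condition at the primes of `σ` (helper27) -/

set_option autoImplicit false
set_option linter.all false

open NumberField Matrix PowerSeries
open scoped Pointwise

noncomputable section

namespace Vale.Agent.P004F.Cn

open Vale.Agent.P022 P004K Vale.Agent.P022K
open Vale.Agent.P027M.S (Inert)
open Vale.Agent.P022D.W (dec)
open Vale.Agent.P022.H443 (inP)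
open Vale.Agent.P022E.GW (Ov Fb Gn)
open Pr (Gd)

set_option synthInstance.maxSize 1024 in
theorem cm2 : ∀ A U V : Matrix (Fin 2) (Fin 2) (ZMod 2), A.det ≠ 0 → (U - 1) ^ 2 = 0 →
    (V - 1) ^ 2 = 0 → (U * V - 1) ^ 2 = 0 → A * U = V * A → A * U = U * A ∧ U ^ 2 = 1 := by
  simp only [det_fin_two, pow_two]
  decide

open scoped Classical in
theorem two (hp : PRESN) (hl : LOCT) (hu : UNI) (h1 : RC1) (h2 : RC2) {e : Crv} {b : Fld e}
    {m n c : ℕ} {χ : GQ → ℕ} {q v B J : ℕ} (tw : b.Tw m n c χ) (xq : b.Xq c χ q v) (hJ : J ≤ 2 ^ n)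
    (hB : B < J) (h : Nat.card (b.Z0 J (c * q) χ) ≤ 2 ^ B) :
    Nat.card (b.Z1 J (c * q) χ) = Nat.card (b.Z0 J (c * q) χ) := by
  have J0 : 0 < J := by omega
  have := loc J0
  have := fin J
  have c0 : 0 < c := one_pos.trans tw.one
  have c1 : 0 < c * q := mul_pos c0 xq.pr.pos
  have G := gd h1 h2 tw.toAd c1 (dvd_mul_right c q) hJ
  have hS : ∀ p : e.σ, (p : ℕ) ∈ e.S := fun p =>
    List.mem_of_mem_filter (List.mem_toFinset.1 (Finset.mem_filter.1 p.2).1)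
  have n2 : ∀ p : e.σ, (p : ℕ) ≠ 2 := fun p => (Finset.mem_filter.1 p.2).2.1
  have ai : ∀ (p : e.σ) g, Inert (e.P p) g → b.ab J χ g = (rb e g).map (k0 J) := fun p g i => by
    rw [ab_eq, tt_one hJ (chi_inert h2 tw.toAd c0 (e.ov p (hS p)) (fun d => (tw.gp p
      (Nat.mem_primeFactors.2 ⟨(e.ov p (hS p)).1, d, c0.ne'⟩)).out (hS p))
      (b.le p (hS p) (P022D.W.inP_le_dec i)) i), one_smul]
  have un : ∀ (p : e.σ) g, Inert (e.P p) g → (rb e g - 1) ^ 2 = 0 := fun p g i => by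
    have := congrArg (PadicInt.toZMod (p := 2)).mapMatrix (hu e p p.2 g i).1
    simp only [map_pow, map_sub, map_one, map_zero] at this
    exact this
  have cm : ∀ (p : e.σ) g, Inert (e.P p) g → ∀ f ∈ dec (e.P p),
      rb e f * rb e g = rb e g * rb e f ∧ rb e g ^ 2 = 1 := fun p g i f a => by
    have k : f * g * f⁻¹ ∈ inP (e.P p) := P022D.W.conj_inP a i
    exact cm2 _ _ _ (rb_det e f) (un p g i) (un p _ k) (rb_mul e _ _ ▸ un p _ (mul_mem (s := inP _) i k))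
      (by rw [← rb_mul, ← rb_mul, inv_mul_cancel_right])
  have tp : ∀ p : e.σ, Tp b.Γ (b.ab J χ) p (e.P p) (b.φ p) (e.τ p) := fun p =>
    ⟨n2 p, e.ov p (hS p), b.ch.frb p (hS p), e.gn p (hS p) (n2 p), b.le p (hS p), fun g i => ⟨1, by
      rw [ai p g i, pow_one]
      exact (map_pow (k0 J).mapMatrix _ 2).symm.trans (by rw [(cm p g i 1 (one_mem _)).2, map_one])⟩⟩
  obtain ⟨P, o⟩ := P004R.Mu.ex_pl xq.pr
  obtain ⟨g, r, Q, w, F, hc, bij, hw⟩ := gen hp hl (π J0) (two0 J) G (e.ov 2 e.two) (b.le 2 e.two)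
    (fun p : e.σ => p) (fun p => e.P p) (fun p => b.φ p) (fun p => e.τ p)
    (fun p => (mem_T c1 (tp p).ov.1).2 (.inl (hS p))) tp
    (fun i j g _ k => Subtype.ext (GW.Pl.ov_uniq (GW.ov_smul (tp i).ov g) (k ▸ (tp j).ov)))
    ⟨q, (mem_T c1 xq.pr).2 (.inr (dvd_mul_left q c)), fun k => xq.out (k ▸ T_two c), P, o, xq.spl P o,
      fun g a => (ab_π b J0 χ g).trans (xq.res P o g a),
      fun p k => xq.out ((mem_T c0 xq.pr).2 (.inl (k ▸ hS p)))⟩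
  have od : ∀ p : e.σ, Odd (p : ℕ) := fun p => (tp p).ov.1.odd_of_ne_two (n2 p)
  have e0 := Nat.card_congr bij.equiv
  have nd : ∀ (p : e.σ) x, Nt (b.ab J χ (b.φ p)) (b.ab J χ (e.τ p)) p *ᵥ
      Sum.elim ((b.ab J χ (b.φ p) - 1) *ᵥ x) ((b.ab J χ (e.τ p) - 1) *ᵥ x) = 0 := fun p x => by
    obtain ⟨E, -, H, -, k2, k3⟩ := ex_loc (od p) ((1 + tt J) ^ χ (b.φ p)) (un p _ (tp p).gn.1)
      (rb_det e (b.φ p)) (cm p _ (tp p).gn.1 _ (tp p).mφ).1
    rw [ai p _ (tp p).gn.1, ab_eq, ← fromRows_mulVec, mulVec_mulVec, k3, Matrix.mul_assoc, k2,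
      fromCols_mul_fromRows, zero_mul, mul_zero, add_zero, zero_mulVec]
  refine .trans ?_ ((stp2 Q w _ _ _ hc od (fun p => ⟨_, _, _, ab_eq b J χ _, ai p _ (tp p).gn.1,
    un p _ (tp p).gn.1, rb_det e _, (cm p _ (tp p).gn.1 _ (tp p).mφ).1⟩)
    (e0.trans_lt (h.trans_lt (Nat.pow_lt_pow_right one_lt_two hB)))).trans e0)
  have k : ∀ z : (Fin g → Rb J) × (e.σ → Fin 2 → Rb J), (∀ p, w p *ᵥ z.1 = Sum.elim
      ((b.ab J χ (b.φ p) - 1) *ᵥ z.2 p) ((b.ab J χ (e.τ p) - 1) *ᵥ z.2 p)) →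
      ∀ p : e.σ, (Nt (b.ab J χ (b.φ p)) (b.ab J χ (e.τ p)) p * w p) *ᵥ z.1 = 0 := fun z a p => by
    rw [← mulVec_mulVec, a, nd]
  refine (Nat.card_congr (Set.BijOn.equiv (fun z => (F z.1, z.2)) ⟨fun z a => ?_, fun z a z' a' k' =>
    Prod.ext (bij.2.1 ⟨a.1, k z a.2⟩ ⟨a'.1, k z' a'.2⟩ (Prod.mk.inj k').1) (Prod.mk.inj k').2,
    fun x a => ?_⟩)).symm
  · obtain ⟨X, z0⟩ := bij.1 (x := z.1) ⟨a.1, k z a.2⟩
    refine ⟨X, fun g i j => (congrFun (z0 g i) j).trans (smul_zero _).symm, fun p => ?_⟩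
    have := (hw z.1 a.1 (k z a.2) p).symm.trans (a.2 p)
    exact (tp p).det2 hl (two0 J) G X (funext fun i => congrFun this (.inl i))
      (funext fun i => congrFun this (.inr i))
  · obtain ⟨y, a', k'⟩ := @bij.2.2 x.1 ⟨a.toCc, fun g i => funext fun j =>
      (a.sv g i j).trans (smul_zero _)⟩
    exact ⟨(y, x.2), ⟨a'.1, fun p => by
      rw [hw y a'.1 a'.2 p, k', a.sp p _ (tp p).mφ, a.sp p _ (tp p).mτ]; rfl⟩, Prod.ext k' rfl⟩

theorem cnt (hp : PRESN) (hl : LOCT) (hu : UNI) (h1 : RC1) (h2 : RC2) : CNT :=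
  cnt0 h1 h2 hp hl fun _ _ _ _ _ _ _ _ _ _ => two hp hl hu h1 h2

end Vale.Agent.P004F.Cn
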