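import Vale.Agent.P004F.St
import Vale.Agent.P004R.Dbl0

/-! # P004F, row CNT: linear algebra over `𝔽₂[T] / T ^ J` (helper27) -/

set_option autoImplicit false
set_option linter.all false

open Matrix PowerSeries

noncomputable section

namespace Vale.Agent.P004F.Cn

variable {J : ℕ}

/-- constants -/
abbrev k0 (J : ℕ) : ZMod 2 →+* Rb J := (Ideal.Quotient.mk _).comp C

/-- the variable -/
abbrev tt (J : ℕ) : Rb J := Ideal.Quotient.mk _ X

theorem hk (J : ℕ) (x : (ZMod 2)⟦X⟧) : (Ideal.Quotient.mk _ x : Rb J) = 0 ↔ X ^ J ∣ x :=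
  Ideal.Quotient.eq_zero_iff_mem.trans Ideal.mem_span_singleton

theorem fin (J : ℕ) : Finite (Rb J) :=
  .of_equiv _ (Alg.ps_equiv _ Ideal.Quotient.mk_surjective (hk J)).some.symm

theorem two0 (J : ℕ) : (2 : Rb J) = 0 := by
  rw [← map_ofNat (k0 J) 2, show (2 : ZMod 2) = 0 from rfl, map_zero]

theorem pow2 (v : ℕ) : (1 + X : (ZMod 2)⟦X⟧) ^ 2 ^ v = 1 + X ^ 2 ^ v := by
  have : CharP (ZMod 2)⟦X⟧ 2 := charP_of_injective_ringHom (C_injective (R := ZMod 2)) 2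
  rw [add_pow_char_pow, one_pow]

theorem pow_one_of {n : ℕ} (h : J ≤ 2 ^ n) : (1 + tt J) ^ 2 ^ n = 1 := by
  rw [← map_one (Ideal.Quotient.mk _), ← map_add, ← map_pow, pow2, map_add,
    (hk J _).2 (pow_dvd_pow _ h), add_zero]

theorem one_add_pow {v k : ℕ} (h : 2 ^ v ∣ k) (h' : ¬2 ^ (v + 1) ∣ k) :
    ∃ ε, IsUnit ε ∧ (1 + tt J) ^ k - 1 = ε * tt J ^ 2 ^ v := by
  obtain ⟨k, rfl⟩ := h
  have o : Odd k := Nat.not_even_iff_odd.1 fun e =>
    h' (pow_succ 2 v ▸ Nat.mul_dvd_mul_left _ e.two_dvd)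
  have a := geom_sum_mul (1 + X ^ 2 ^ v : (ZMod 2)⟦X⟧) k
  refine ⟨_, IsUnit.map (Ideal.Quotient.mk _) (isUnit_iff_constantCoeff.2 ?_), by
    rw [← map_one (Ideal.Quotient.mk _), ← map_add, ← map_pow, ← map_pow, ← map_sub, ← map_mul,
      pow_mul, pow2, ← a, add_sub_cancel_left]⟩
  simp [(ZMod.natCast_eq_one_iff_odd).2 o]

section cnt

variable {m n s : Type} [Fintype m] [DecidableEq m] [Fintype n] [Fintype s] [DecidableEq s]

theorem lift (M : Matrix m m (Rb J)) : ∃ A : Matrix m m (ZMod 2)⟦X⟧,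
    A.map (Ideal.Quotient.mk _) = M ∧ Ideal.Quotient.mk _ A.det = M.det := by
  have e : (M.map (Function.surjInv Ideal.Quotient.mk_surjective)).map (Ideal.Quotient.mk _) = M :=
    Matrix.ext fun _ _ => Function.surjInv_eq _ _
  exact ⟨_, e, (RingHom.map_det _ _).trans (congrArg det e)⟩

theorem low {A : Matrix m m (ZMod 2)⟦X⟧} {l : ℕ} (h : X ^ l ∣ A.det) (hl : l ≤ J) :
    2 ^ l ≤ Nat.card {y : m → Rb J // A.map (Ideal.Quotient.mk _) *ᵥ y = 0} := by
  have := fin J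
  simpa using P004R.Db.low (hk J) l A 0 h hl

/-- the determinant gives the number of solutions -/
theorem ker_of_det {M : Matrix m m (Rb J)} {l : ℕ} {ε : Rb J} (hl : l < J) (u : IsUnit ε)
    (h : M.det = ε * tt J ^ l) : Nat.card {y // M *ᵥ y = 0} = 2 ^ l := by
  obtain ⟨A, rfl, e⟩ := lift M
  obtain ⟨η, a⟩ := u.exists_right_inv
  obtain ⟨ε, rfl⟩ := Ideal.Quotient.mk_surjective ε
  obtain ⟨η, rfl⟩ := Ideal.Quotient.mk_surjective η
  rw [← e, ← map_pow, ← map_mul, ← sub_eq_zero, ← map_sub, hk] at h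
  rw [← map_mul, ← map_one (Ideal.Quotient.mk _), ← sub_eq_zero, ← map_sub, hk] at a
  refine le_antisymm (((Alg.cnt_ps _ Ideal.Quotient.mk_surjective (hk J) A).1 l fun c => ?_).trans_eq
    (by rw [Nat.card_zmod])) (low ?_ hl.le)
  · have b := dvd_sub c ((pow_dvd_pow _ hl).trans h)
    rw [sub_sub_cancel, pow_succ', mul_dvd_mul_iff_right (pow_ne_zero _ X_ne_zero)] at b
    have := dvd_sub (b.mul_right η) ((dvd_pow_self _ (by omega)).trans a)
    rw [sub_sub_cancel] at this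
    exact X_prime.not_dvd_one this
  · simpa using dvd_add ((pow_dvd_pow _ hl.le).trans h) (dvd_mul_left (X ^ l) ε)

theorem det_of_ker {M : Matrix m m (Rb J)} (h : Nat.card {y // M *ᵥ y = 0} < 2 ^ J) :
    ∃ l < J, ∃ ε, IsUnit ε ∧ M.det = ε * tt J ^ l := by
  obtain ⟨A, rfl, e⟩ := lift M
  have a : ¬X ^ J ∣ A.det := fun c => (low c le_rfl).not_gt h
  obtain ⟨l, u, k⟩ := IsDiscreteValuationRing.eq_unit_mul_pow_irreducible
    (fun c => a (c ▸ dvd_zero _) : A.det ≠ 0) X_irreducible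
  exact ⟨l, not_le.1 fun c => a (k ▸ (pow_dvd_pow _ c).mul_left _), _, u.isUnit.map _, by
    rw [← e, k, map_mul, map_pow]⟩

theorem sqr (e : m ≃ n) (M : Matrix m n (Rb J)) :
    Nat.card {y // M *ᵥ y = 0} = Nat.card {y // M.submatrix id e *ᵥ y = 0} :=
  (Nat.card_congr ((e.arrowCongr (.refl _)).subtypeEquiv fun y => by
    rw [submatrix_mulVec_equiv]; rfl)).symm

theorem rows {r : Type} (Q : Matrix r n (Rb J)) (W : Matrix s n (Rb J)) (y : n → Rb J) :
    fromRows Q W *ᵥ y = 0 ↔ Q *ᵥ y = 0 ∧ W *ᵥ y = 0 := by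
  simp only [fromRows_mulVec, funext_iff, Sum.forall, Sum.elim_inl, Sum.elim_inr, Pi.zero_apply]

theorem det_mul' {r : Type} [Fintype r] [DecidableEq r] (e : r ⊕ s ≃ n) (Q : Matrix r n (Rb J))
    (W : Matrix s n (Rb J)) (H : Matrix s s (Rb J)) :
    ((fromRows Q (H * W)).submatrix id e).det = H.det * ((fromRows Q W).submatrix id e).det := by
  have := fromBlocks_mul_fromRows Q W (1 : Matrix r r (Rb J)) 0 0 H
  rw [Matrix.one_mul, Matrix.zero_mul, Matrix.zero_mul, add_zero, zero_add] at this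
  rw [← this]
  exact (det_mul (fromBlocks 1 0 0 H) ((fromRows Q W).submatrix id e)).trans (by simp)

theorem blk (e : m ≃ n) (M : Matrix m n (Rb J)) (W : Matrix s n (Rb J)) (H : Matrix s s (Rb J)) :
    Nat.card {z : (n → Rb J) × (s → Rb J) // M *ᵥ z.1 = 0 ∧ W *ᵥ z.1 = H *ᵥ z.2} =
      Nat.card {y // fromBlocks (M.submatrix id e) 0 (W.submatrix id e) (-H) *ᵥ y = 0} :=
  (Nat.card_congr (((Equiv.sumArrowEquivProdArrow _ _ _).trans
    ((e.arrowCongr (.refl _)).prodCongr (.refl _))).subtypeEquiv fun y => by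
      rw [fromBlocks_mulVec, submatrix_mulVec_equiv, submatrix_mulVec_equiv, zero_mulVec, add_zero,
        neg_mulVec, ← sub_eq_add_neg, funext_iff, Sum.forall]
      exact and_congr funext_iff.symm (funext_iff.symm.trans sub_eq_zero))).symm

end cnt

theorem stp1 {J B e r g : ℕ} {s : Type} [Fintype s] [DecidableEq s]
    (Q : Matrix (Fin r) (Fin g) (Rb J)) (W : Matrix s (Fin g) (Rb J)) (H : Matrix s s (Rb J))
    (hc : r + Fintype.card s = g) (hH : ∃ ε, IsUnit ε ∧ H.det = ε * tt J ^ e) (hB : B + e < J)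
    (h : Nat.card {y // Q *ᵥ y = 0 ∧ W *ᵥ y = 0} ≤ 2 ^ B) :
    Nat.card {y // Q *ᵥ y = 0 ∧ (H * W) *ᵥ y = 0} =
      Nat.card {y // Q *ᵥ y = 0 ∧ W *ᵥ y = 0} * 2 ^ e := by
  have E : Fin r ⊕ s ≃ Fin g := Fintype.equivOfCardEq (by simp [hc])
  simp only [← rows, sqr E] at h ⊢
  obtain ⟨l, a, ε, u, k⟩ := det_of_ker (h.trans_lt (Nat.pow_lt_pow_right one_lt_two (by omega)))
  obtain ⟨η, v, k'⟩ := hH
  rw [ker_of_det a u k, Nat.pow_le_pow_iff_right one_lt_two] at h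
  rw [ker_of_det a u k, ← pow_add]
  exact ker_of_det (by omega) (v.mul u) (by rw [det_mul', k, k']; ring)

/-- the local complex in the ramified case -/
theorem ex_E {R : Type} [CommRing R] {n m : M2 R} (h1 : n * n = 0) (h2 : m * m = 0)
    (h3 : n * m + m * n = 1) (a b b' : R) :
    ∃ (E E' : Matrix (Fin 2 ⊕ Fin 2) (Fin 2 ⊕ Fin 2) R) (H : M2 R), E' * E = 1 ∧
      E * fromRows (a • 1 + b • n) n = fromRows H 0 ∧
      fromCols (-n) (a • 1 + b' • n) = fromCols (0 : M2 R) H * E := by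
  have k3 : m * n = 1 - n * m := eq_sub_of_add_eq' h3
  have k1 : ∀ x : M2 R, n * (n * x) = 0 := fun x => by rw [← mul_assoc, h1, zero_mul]
  have k2 : ∀ x : M2 R, m * (m * x) = 0 := fun x => by rw [← mul_assoc, h2, zero_mul]
  have k4 : ∀ x : M2 R, m * (n * x) = x - n * (m * x) := fun x => by
    rw [← mul_assoc, k3, sub_mul, one_mul, mul_assoc]
  refine ⟨fromBlocks m (n * m - b • m) (-(m * n)) (a • m + n + b' • (m * n)),
    fromBlocks (n + b • (n * m) + a • m) (b' • m - m * n) (n * m) m, n + a • m, ?_, ?_, ?_⟩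
  · rw [fromBlocks_multiply, ← fromBlocks_one, fromBlocks_inj]
    refine ⟨?_, ?_, ?_, ?_⟩ <;>
      simp only [mul_add, add_mul, mul_sub, sub_mul, smul_mul_assoc, mul_smul_comm, mul_assoc, mul_neg,
        h1, h2, k1, k2, k3, k4, mul_one, one_mul, mul_zero, smul_zero] <;> module
  · rw [fromBlocks_mul_fromRows, fromRows_ext_iff]
    refine ⟨?_, ?_⟩ <;>
      simp only [mul_add, add_mul, mul_sub, sub_mul, smul_mul_assoc, mul_smul_comm, mul_assoc, neg_mul,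
        h1, h2, k1, k2, k3, k4, mul_one, one_mul, mul_zero, smul_zero] <;> module
  · rw [fromCols_mul_fromBlocks, fromCols_ext_iff]
    refine ⟨?_, ?_⟩ <;>
      simp only [mul_add, add_mul, mul_sub, sub_mul, smul_mul_assoc, mul_smul_comm, mul_assoc, mul_neg,
        h1, h2, k1, k2, k3, k4, mul_one, one_mul, mul_zero, zero_mul, smul_zero] <;> module

theorem nt_eq {R : Type} [CommRing R] {n : M2 R} (h : n * n = 0) {p : ℕ} (hp : (p : R) = 1)
    (A : M2 R) : Nt A (1 + n) p =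
      fromCols (-n) (A - 1 - ((∑ i ∈ Finset.range p, i : ℕ) : R) • n) := by
  have k : ∀ i : ℕ, (1 + n) ^ i = 1 + (i : R) • n := fun i => by
    induction i with
    | zero => simp
    | succ i ih =>
      simp only [pow_succ, ih, mul_add, add_mul, smul_mul_assoc, h, mul_one, one_mul, Nat.cast_succ]
      module
  simp only [Nt, k, hp, one_smul, sub_add_cancel_left, Finset.sum_add_distrib, Finset.sum_const,
    Finset.card_range, ← Finset.sum_smul, Nat.cast_sum, ← Nat.cast_smul_eq_nsmul R p, sub_sub]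

set_option synthInstance.maxSize 1024 in
theorem cls : ∀ U A : Matrix (Fin 2) (Fin 2) (ZMod 2), (U - 1) ^ 2 = 0 → A.det ≠ 0 → A * U = U * A →
    U = 1 ∨ ∃ (m : Matrix (Fin 2) (Fin 2) (ZMod 2)) (δ : ZMod 2), m * m = 0 ∧ (U - 1) * m + m * (U - 1) = 1 ∧
      A = 1 + δ • (U - 1) := by
  simp only [det_fin_two, pow_two]
  decide

theorem ex_loc {p : ℕ} (od : Odd p) (u : Rb J) {A U : M2 (ZMod 2)} (h1 : (U - 1) ^ 2 = 0)
    (h2 : A.det ≠ 0) (h3 : A * U = U * A) :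
    ∃ (E E' : Matrix (Fin 2 ⊕ Fin 2) (Fin 2 ⊕ Fin 2) (Rb J)) (H : M2 (Rb J)), E' * E = 1 ∧
      E * fromRows (u • A.map (k0 J) - 1) (U.map (k0 J) - 1) = fromRows H 0 ∧
      Nt (u • A.map (k0 J)) (U.map (k0 J)) p = fromCols (0 : M2 (Rb J)) H * E := by
  have hp : (p : Rb J) = 1 := by
    rw [← map_natCast (k0 J), ZMod.natCast_eq_one_iff_odd.2 od, map_one]
  let f := (k0 J).mapMatrix (m := Fin 2)
  have e : U.map (k0 J) = 1 + f (U - 1) := by rw [map_sub, map_one, add_sub_cancel]; rfl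
  have n : f (U - 1) * f (U - 1) = 0 := by rw [← map_mul, ← pow_two, h1, map_zero]
  rw [e, nt_eq n hp, add_sub_cancel_left]
  obtain rfl | ⟨m, δ, a, b, c⟩ := cls U A h1 h2 h3
  · exact ⟨1, 1, u • A.map (k0 J) - 1, by simp, by simp, by simp⟩
  · have k : u • A.map (k0 J) - 1 = (u - 1) • 1 + (u * k0 J δ) • f (U - 1) := by
      have : A.map (k0 J) = 1 + k0 J δ • f (U - 1) := by
        refine (congrArg f c).trans ?_
        rw [map_add, map_one]
        exact congrArg _ (Matrix.ext fun i j => map_mul (k0 J) _ _)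
      rw [this, smul_add, smul_smul, sub_smul, one_smul, add_sub_right_comm]
    obtain ⟨E, E', H, k1, k2, k3⟩ := ex_E (m := f m) n (by rw [← map_mul, a, map_zero])
      (by rw [← map_mul, ← map_mul, ← map_add, b, map_one]) (u - 1) (u * k0 J δ)
      (u * k0 J δ - (∑ i ∈ Finset.range p, i : ℕ))
    exact ⟨E, E', H, k1, k ▸ k2, by rw [← k3, k, sub_smul (u * _), add_sub_assoc]⟩

theorem stp2 {J r g : ℕ} {ι : Type} [Fintype ι] (Q : Matrix (Fin r) (Fin g) (Rb J))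
    (w : ι → Matrix (Fin 2 ⊕ Fin 2) (Fin g) (Rb J)) (A U : ι → M2 (Rb J)) (p : ι → ℕ)
    (hc : r + 2 * Fintype.card ι = g) (od : ∀ i, Odd (p i))
    (hA : ∀ i, ∃ (u : Rb J) (A0 U0 : M2 (ZMod 2)), A i = u • A0.map (k0 J) ∧ U i = U0.map (k0 J) ∧
      (U0 - 1) ^ 2 = 0 ∧ A0.det ≠ 0 ∧ A0 * U0 = U0 * A0)
    (h : Nat.card {y // Q *ᵥ y = 0 ∧ ∀ i, (Nt (A i) (U i) (p i) * w i) *ᵥ y = 0} < 2 ^ J) :
    Nat.card {z : (Fin g → Rb J) × (ι → Fin 2 → Rb J) // Q *ᵥ z.1 = 0 ∧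
      ∀ i, w i *ᵥ z.1 = Sum.elim ((A i - 1) *ᵥ z.2 i) ((U i - 1) *ᵥ z.2 i)} =
      Nat.card {y // Q *ᵥ y = 0 ∧ ∀ i, (Nt (A i) (U i) (p i) * w i) *ᵥ y = 0} := by
  classical
  have : ∀ i, ∃ (E E' : Matrix (Fin 2 ⊕ Fin 2) (Fin 2 ⊕ Fin 2) (Rb J)) (H : M2 (Rb J)),
      E' * E = 1 ∧ E * fromRows (A i - 1) (U i - 1) = fromRows H 0 ∧
      Nt (A i) (U i) (p i) = fromCols (0 : M2 (Rb J)) H * E := fun i => by
    obtain ⟨u, A0, U0, a, b, c, d, e⟩ := hA i
    rw [a, b]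
    exact ex_loc (od i) u c d e
  choose E E' H k1 k2 k3 using this
  have e : Fin r ⊕ Fin 2 × ι ≃ Fin g := Fintype.equivOfCardEq (by simp [hc])
  let W₁ : Matrix (Fin 2 × ι) (Fin g) (Rb J) := fun x => (E x.2 * w x.2) (.inl x.1)
  let W₂ : Matrix (Fin 2 × ι) (Fin g) (Rb J) := fun x => (E x.2 * w x.2) (.inr x.1)
  have bd : ∀ (v : Fin 2 × ι → Rb J) x, (blockDiagonal H *ᵥ v) x =
      (H x.2 *ᵥ fun j => v (j, x.2)) x.1 := fun v x => by
    simp [mulVec, dotProduct, blockDiagonal_apply, Fintype.sum_prod_type]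
  have e1 : ∀ y, (∀ i, (Nt (A i) (U i) (p i) * w i) *ᵥ y = 0) ↔
      (blockDiagonal H * W₂) *ᵥ y = 0 := fun y => by
    simp only [k3, Matrix.mul_assoc, ← mulVec_mulVec y (fromCols _ _), ← mulVec_mulVec y (blockDiagonal _),
      fromCols_mulVec, zero_mulVec, zero_add, funext_iff, bd, Prod.forall]
    exact forall_comm
  have e2 : Nat.card {z : (Fin g → Rb J) × (ι → Fin 2 → Rb J) // Q *ᵥ z.1 = 0 ∧
      ∀ i, w i *ᵥ z.1 = Sum.elim ((A i - 1) *ᵥ z.2 i) ((U i - 1) *ᵥ z.2 i)} =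
      Nat.card {z : (Fin g → Rb J) × (Fin 2 × ι → Rb J) // fromRows Q W₂ *ᵥ z.1 = 0 ∧
        W₁ *ᵥ z.1 = blockDiagonal H *ᵥ z.2} := by
    refine Nat.card_congr (((Equiv.refl _).prodCongr
      ((Equiv.piComm _).trans (Equiv.curry _ _ _).symm)).subtypeEquiv fun z => ?_)
    have : ∀ i, w i *ᵥ z.1 = Sum.elim ((A i - 1) *ᵥ z.2 i) ((U i - 1) *ᵥ z.2 i) ↔
        (E i * w i) *ᵥ z.1 = Sum.elim (H i *ᵥ z.2 i) 0 := fun i => by
      rw [← fromRows_mulVec, ← zero_mulVec (z.2 i), ← fromRows_mulVec, ← k2, ← mulVec_mulVec,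
        ← mulVec_mulVec]
      exact ⟨congrArg _, fun a => by
        simpa only [mulVec_mulVec, ← Matrix.mul_assoc, k1, Matrix.one_mul] using
          congrArg (E' i *ᵥ ·) a⟩
    simp only [rows, this, and_assoc, funext_iff, bd, Sum.forall, Prod.forall, forall_and]
    exact and_congr_right' (and_comm.trans (and_congr forall_comm forall_comm))
  simp only [e1, ← rows, sqr e] at h ⊢
  obtain ⟨l, a, ε, u, k⟩ := det_of_ker h
  rw [e2, blk e, ker_of_det a u k]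
  refine ker_of_det a ((isUnit_one.neg.pow (Fintype.card (Fin 2 × ι))).mul u) ?_
  rw [det_fromBlocks_zero₁₂, det_neg, mul_assoc, ← k, det_mul']
  ring

end Vale.Agent.P004F.Cn
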