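import Vale.Agent.P004F.Cn.Alg
import Vale.Agent.P004F.Pt.Kd
import Vale.Agent.P004R.Lex

/-! # P004F, row CNT: the residual action (helper27) -/

set_option autoImplicit false
set_option linter.all false

open NumberField Matrix PowerSeries

noncomputable section

namespace Vale.Agent.P004F.Cn

open Vale.Agent.P022 P004K
open Vale.Agent.P027M.S (Inert)
open Vale.Agent.P022D.W (dec)
open Vale.Agent.P022E.GW (Ov Fb Gn)
open Pr (Gd)

variable {J : ℕ}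

/-- the residue map -/
def π (h : 0 < J) : Rb J →+* ZMod 2 := Ideal.Quotient.lift _ constantCoeff fun x m =>
  X_dvd_iff.1 ((dvd_pow_self _ h.ne').trans (Ideal.mem_span_singleton.1 m))

theorem π_k0 (h : 0 < J) (x : ZMod 2) : π h (k0 J x) = x := constantCoeff_C x

theorem π_tt (h : 0 < J) : π h (tt J) = 0 := constantCoeff_X

theorem loc (h : 0 < J) : IsLocalRing (Rb J) :=
  have := (π h).domain_nontrivial
  .of_surjective' _ Ideal.Quotient.mk_surjective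

theorem tt_mod {n k k' : ℕ} (hJ : J ≤ 2 ^ n) (h : k ≡ k' [MOD 2 ^ n]) :
    (1 + tt J) ^ k = (1 + tt J) ^ k' := by
  rw [pow_eq_pow_mod k (pow_one_of hJ), h, ← pow_eq_pow_mod k' (pow_one_of hJ)]

theorem tt_one {n k : ℕ} (hJ : J ≤ 2 ^ n) (h : 2 ^ n ∣ k) : (1 + tt J) ^ k = 1 :=
  (tt_mod hJ (Nat.modEq_zero_iff_dvd.2 h)).trans (pow_zero _)

variable {e : Crv} (b : Fld e) {n c c' l : ℕ} {χ : GQ → ℕ} {P : Ideal (𝓞 Qb)} {g : GQ}

/-- the residual representation -/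
abbrev rb (e : Crv) (g : GQ) : M2 (ZMod 2) := (e.r g).map PadicInt.toZMod

theorem rb_mul (e : Crv) (g h : GQ) : rb e (g * h) = rb e g * rb e h := by
  rw [rb, map_mul, Matrix.map_mul]

theorem rb_of (h : e.r g = 1) : rb e g = 1 := by
  rw [rb, h, Matrix.map_one _ (map_zero _) (map_one _)]

theorem rb_det (e : Crv) (g : GQ) : (rb e g).det ≠ 0 :=
  left_ne_zero_of_mul_eq_one (b := (rb e g⁻¹).det) (by
    rw [← det_mul, ← rb_mul, mul_inv_cancel, rb_of (map_one _), det_one])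

theorem ab_eq (J : ℕ) (χ : GQ → ℕ) (g : GQ) :
    b.ab J χ g = (1 + tt J) ^ χ g • (rb e g).map (k0 J) := by
  rw [Fld.ab, map_add, map_one]; rfl

theorem ab_π (h : 0 < J) (χ : GQ → ℕ) (g : GQ) : (b.ab J χ g).map (π h) = rb e g := by
  ext i j
  simp only [ab_eq, map_apply, Matrix.smul_apply, smul_eq_mul, map_mul, map_pow, map_add, map_one,
    π_tt, π_k0, add_zero, one_pow, one_mul]

theorem ab_of (h : rb e g = 1) : b.ab J χ g = (1 + tt J) ^ χ g • 1 := by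
  rw [ab_eq, h, Matrix.map_one _ (map_zero _) (map_one _)]

theorem ab_one (hJ : J ≤ 2 ^ n) (h : rb e g = 1) (h' : 2 ^ n ∣ χ g) : b.ab J χ g = 1 := by
  rw [ab_of b h, tt_one hJ h', one_smul]

/-- the ring class field of conductor `c` is unramified outside `c` -/
theorem hc_inert (h2 : RC2) (c0 : 0 < c) (o : Ov l P) (hl : ¬l ∣ c) (hg : g ∈ b.Γ)
    (i : Inert P g) : g ∈ Hc b.j c := by
  obtain ⟨-, -, -, -, r5, -, r7⟩ := h2 b.K b.j b.iq c c0
  refine (r5 _ g ⟨by simp, by simp⟩ (r7 P o.2.1 ?_ (fun i => hl ?_) g hg 0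
    (fun x => by simpa using i x))).2 ⟨1, 0, by simp⟩
  · rintro rfl
    exact o.1.ne_zero (Nat.cast_eq_zero.1 (Ideal.mem_bot.1 o.2.2))
  · exact_mod_cast P004S.ov_dvd o (a := c) (by exact_mod_cast i)

variable {b}

theorem chi_inert (h2 : RC2) (A : b.Ad n c χ) (c0 : 0 < c) (o : Ov l P) (hl : ¬l ∣ c)
    (hg : g ∈ b.Γ) (i : Inert P g) : 2 ^ n ∣ χ g := A.ker g (hc_inert b h2 c0 o hl hg i)

theorem mem_T (c0 : 0 < c) (hl : l.Prime) : l ∈ b.T c ↔ l ∈ e.S ∨ l ∣ c := by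
  simp [Fld.T, hl, c0.ne']

theorem ab_inert (h2 : RC2) (A : b.Ad n c χ) (c0 : 0 < c) (hJ : J ≤ 2 ^ n) (o : Ov l P)
    (hl : l ∉ b.T c) (hg : g ∈ b.Γ) (i : Inert P g) : b.ab J χ g = 1 := by
  rw [mem_T c0 o.1, not_or] at hl
  exact ab_one b hJ (rb_of (e.r_inert o hl.1 i)) (chi_inert h2 A c0 o hl.2 hg i)

theorem T_mono (c0 : 0 < c') (h : c ∣ c') : b.T c ⊆ b.T c' :=
  Finset.union_subset_union_right (Nat.primeFactors_mono h c0.ne')

theorem T_two (c : ℕ) : 2 ∈ b.T c := Finset.mem_union_left _ (List.mem_toFinset.2 e.two)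

theorem T_pr (h : l ∈ b.T c) : l.Prime := (Finset.mem_union.1 h).elim
  (fun a => (e.ov l (List.mem_toFinset.1 a)).1) Nat.prime_of_mem_primeFactors

theorem sm2 {R : Type} [CommRing R] (x y : R) (A B : M2 R) :
    (x * y) • (A * B) = x • A * y • B := by
  rw [Matrix.smul_mul, Matrix.mul_smul, smul_smul]

theorem gd (h1 : RC1) (h2 : RC2) (A : b.Ad n c χ) (c0 : 0 < c') (hc : c ∣ c') (hJ : J ≤ 2 ^ n) :
    Gd b.Γ (b.T c') (b.ab J χ) := by
  have G := P004R.Lx.gd (R := ZMod 2) b.kd (T_two (b := b) c') (fun l => T_pr) (χ := fun _ => 1) rfl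
    (fun _ _ _ _ => (mul_one _).symm) ⟨⊤, isOpen_univ, fun _ _ => rfl⟩ fun _ _ _ => rfl
  have c1 := Nat.pos_of_dvd_of_pos hc c0
  refine ⟨G.opn, G.idx, G.cx, G.two, G.pr, ab_one b hJ (rb_of (map_one _)) (A.ker 1 (one_mem _)),
    fun g a h a' => ?_, ⟨Hc b.j c ⊓ e.rep.Kn 1, (h1 _ b.j b.iq c c1).2.1.inter (e.rep.Kn_open 1),
      fun w _ m => ab_one b hJ (e.tr_one.1 m.2) (A.ker w m.1)⟩,
    fun g a ⟨l, m, Q, o, i⟩ => ab_inert h2 A c1 hJ o (fun k => m (T_mono c0 hc k)) a i⟩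
  rw [ab_eq, ab_eq, ab_eq, tt_mod hJ (A.add g a h a'), rb_mul, Matrix.map_mul, pow_add, sm2]

end Vale.Agent.P004F.Cn
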