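import Vale.Agent.P004F.St
import Vale.Agent.P004F.Ra.Ra

/-!
# P004F, block CNT: presentations with tame parameters at places of degree one (helper25)
-/

set_option linter.all false

open NumberField Matrix
open scoped Classical Pointwise

noncomputable section

namespace Vale.Agent.P004F.Cn

open Vale.Agent.P022 Vale.Agent.P022K
open Vale.Agent.P027M.S (Inert)
open Vale.Agent.P022D.W (dec inP_le_dec phi_mem)
open Vale.Agent.P022E.GW (Ov Fb Gn)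
open Pr (ac ac_add ac_zero Gd Zs)

variable {R : Type} [CommRing R] {ι s t : Type}

namespace Gx

/-- a matrix in the block `i` -/
def em (i : ι) (A : Matrix s t R) : Matrix s (ι × t) R :=
  .of fun a x => if x.1 = i then A a x.2 else 0

/-- block diagonal matrices -/
def dg (N : ι → Matrix s t R) : Matrix (ι × s) (ι × t) R := .of fun y => em y.1 (N y.1) y.2

variable [Fintype ι] [Fintype t] [Fintype s]

theorem em_mv (i : ι) (A : Matrix s t R) (z : ι × t → R) :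
    em i A *ᵥ z = A *ᵥ fun x => z (i, x) := by
  funext a
  simp [em, mulVec, dotProduct, Fintype.sum_prod_type, Finset.sum_comm (γ := ι)]

theorem dg_mv (N : ι → Matrix s t R) (z : ι × t → R) :
    dg N *ᵥ z = 0 ↔ ∀ i, N i *ᵥ (fun x => z (i, x)) = 0 := by
  simp only [← em_mv, funext_iff, Prod.forall]
  rfl

theorem em_coc {i : ι} {N : ι → Matrix s t R} {x y z : Matrix s t R} {A β : Matrix s s R}
    (h : x = y + A * z + β * N i) : em i x = em i y + A * em i z + em i β * dg N := by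
  ext a ⟨j, c⟩
  by_cases e : j = i
  · simp [h, em, dg, e, mul_apply, Fintype.sum_prod_type, Finset.sum_comm (γ := ι)]
  · simp [em, dg, e, mul_apply, Fintype.sum_prod_type, Finset.sum_comm (γ := ι)]

end Gx

open Gx

variable {Γ : Subgroup GQ} {T : Finset ℕ} {a : GQ → M2 R} {l : ℕ} {P : Ideal (𝓞 Qb)} {φ τ : GQ}

/-- a tame place of degree one -/
structure Tp (Γ : Subgroup GQ) (a : GQ → M2 R) (l : ℕ) (P : Ideal (𝓞 Qb)) (φ τ : GQ) : Prop where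
  ne : l ≠ 2
  ov : Ov l P
  fb : Fb l P φ
  gn : Gn l P τ
  le : dec P ≤ Γ
  ord : ∀ g, Inert P g → ∃ n : ℕ, a g ^ 2 ^ n = 1

theorem Tp.mφ (h : Tp Γ a l P φ τ) : φ ∈ dec P := phi_mem h.ov.1 h.ov.2.1 h.fb

theorem Tp.mτ (h : Tp Γ a l P φ τ) : τ ∈ dec P := inP_le_dec h.gn.1

theorem Tp.loc [Finite R] (hl : LOCT) (h2 : (2 : R) = 0) (G : Gd Γ T a) (h : Tp Γ a l P φ τ) :
    ∃ b : GQ → Matrix (Fin 2) (Fin 2 ⊕ Fin 2) R,
    (∀ g ∈ Γ ⊓ dec P, ∀ h ∈ Γ ⊓ dec P, ∃ β : M2 R,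
      b (g * h) = b g + a g * b h + β * Nt (a φ) (a τ) l) ∧
    (∃ W : Subgroup GQ, IsOpen (W : Set GQ) ∧ ∀ g ∈ Γ ⊓ dec P, ∀ w ∈ Γ ⊓ dec P, w ∈ W →
      b (g * w) = b g) ∧
    b φ = fromCols 1 0 ∧ b τ = fromCols 0 1 ∧
    ∀ (x : GQ → Fin 2 → R),
      (∀ g ∈ Γ, ∀ h ∈ Γ, x (g * h) = x g + a g *ᵥ x h) →
      (∃ W : Subgroup GQ, IsOpen (W : Set GQ) ∧ ∀ w ∈ Γ, w ∈ W → x w = 0) →
      Nt (a φ) (a τ) l *ᵥ Sum.elim (x φ) (x τ) = 0 ∧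
      ∀ g ∈ dec P, x g = b g *ᵥ Sum.elim (x φ) (x τ) := by
  obtain ⟨b, b1, b2, b3, b4, b5⟩ := hl R 1 (by rw [pow_one, h2]) Γ l 1 P φ τ a h.ov h.ne one_pos h.fb
    h.gn (fun g m => h.le (inP_le_dec m)) (fun i => iff_of_true (pow_mem (h.le h.mφ) i) (one_dvd i))
    G.opn G.one (fun g m j n => G.mul g m.1 j n.1)
    (G.lc.imp fun W k => ⟨k.1, fun w m => k.2 w m.1⟩) h.ord
  simp only [pow_one] at b1 b3 b5
  refine ⟨b, b1, b2, b3, b4, fun x c k => ?_⟩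
  have := b5 R x (fun g m j n => c g m.1 j n.1) (k.imp fun W k => ⟨k.1, fun w m => k.2 w m.1⟩)
  exact ⟨this.1, fun g m => this.2 g ⟨h.le m, m⟩⟩

/-- a class which is a coboundary at `φ` and `τ` is a coboundary on the decomposition group -/
theorem Tp.det2 [Finite R] (hl : LOCT) (h2 : (2 : R) = 0) (G : Gd Γ T a) (h : Tp Γ a l P φ τ)
    {T' : Finset ℕ} {x : GQ → Fin 2 → R} (X : Cc Γ T' a x) {m : Fin 2 → R}
    (e1 : x φ = (a φ - 1) *ᵥ m) (e2 : x τ = (a τ - 1) *ᵥ m) : ∀ g ∈ dec P, x g = (a g - 1) *ᵥ m := by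
  obtain ⟨b, -, -, -, -, k⟩ := h.loc hl h2 G
  obtain ⟨W, hW, w⟩ := X.lc
  obtain ⟨V, hV, v⟩ := G.lc
  intro g hg
  have := (k (fun g => x g - (a g - 1) *ᵥ m) (fun g p j q => ?_) ⟨W ⊓ V, hW.inter hV,
    fun u p q => by rw [w u q.1, v u p q.2, sub_self, zero_mulVec, sub_self]⟩).2 g hg
  · rw [e1, e2, sub_self, sub_self, Sum.elim_zero_zero, mulVec_zero] at this
    exact sub_eq_zero.1 this
  · rw [X.coc g p j q, G.mul g p j q, mulVec_sub, mulVec_mulVec, mul_sub, mul_one, sub_mulVec,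
      sub_mulVec, sub_mulVec]
    change _ + _ *ᵥ _ - _ = _
    abel

/-- **presentation** of the cocycles which vanish at `P2` -/
theorem gen (hp : PRESN) (hl : LOCT) [IsLocalRing R] [Finite R] (π : R →+* ZMod 2)
    (h2 : (2 : R) = 0) (G : Gd Γ T a) {P2 : Ideal (𝓞 Qb)} (o2 : Ov 2 P2) (d2 : dec P2 ≤ Γ)
    [Fintype ι] (l : ι → ℕ) (P : ι → Ideal (𝓞 Qb)) (φ τ : ι → GQ) (hT : ∀ i, l i ∈ T)
    (hι : ∀ i, Tp Γ a (l i) (P i) (φ i) (τ i)) (un : ∀ i j, ∀ g ∈ Γ, P j = g • P i → i = j)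
    (rel : ∃ s ∈ T, s ≠ 2 ∧ ∃ Q, Ov s Q ∧ dec Q ≤ Γ ∧ (∀ g ∈ dec Q, (a g).map π = 1) ∧
      ∀ i, l i ≠ s) :
    ∃ (g r : ℕ) (Q : Matrix (Fin r) (Fin g) R) (w : ι → Matrix (Fin 2 ⊕ Fin 2) (Fin g) R)
      (F : (Fin g → R) → GQ → Fin 2 → R), r + 2 * Fintype.card ι = g ∧
      Set.BijOn F {y | Q *ᵥ y = 0 ∧ ∀ i, (Nt (a (φ i)) (a (τ i)) (l i) * w i) *ᵥ y = 0}
        {x | Cc Γ T a x ∧ ∀ g ∈ dec P2, x g = 0} ∧
      ∀ y, Q *ᵥ y = 0 → (∀ i, (Nt (a (φ i)) (a (τ i)) (l i) * w i) *ᵥ y = 0) →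
        ∀ i, w i *ᵥ y = Sum.elim (F y (φ i)) (F y (τ i)) := by
  choose b b1 b2 b3 b4 b5 using fun i => (hι i).loc hl h2 G
  have nq : ∀ {p q : ℕ} {A B : Ideal (𝓞 Qb)} {g : GQ}, Ov p A → Ov q B → B = g • A → p = q :=
    fun o o' e => GW.Pl.ov_uniq (GW.ov_smul o _) (e ▸ o')
  obtain ⟨g, r, Q, u, w, bij, -, crd⟩ := hp R π (ι × (Fin 2 ⊕ Fin 2)) (ι × Fin 2) (Option ι) Γ T a
    (fun o => o.elim P2 P) (fun o g => o.elim 0 fun i => em i (b i g))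
    (dg fun i => Nt (a (φ i)) (a (τ i)) (l i)) G
    (by rintro (_ | i); exacts [⟨2, G.two, o2⟩, ⟨_, hT i, (hι i).ov⟩])
    (by
      rintro (_ | i) (_ | j) g m e
      exacts [rfl, ((hι j).ne (nq o2 (hι j).ov e).symm).elim, ((hι i).ne (nq (hι i).ov o2 e)).elim,
        congrArg _ (un i j g m e)])
    ⟨none, o2, d2, by
      rintro (_ | j) o
      exacts [rfl, ((hι j).ne (GW.Pl.ov_uniq (hι j).ov o)).elim]⟩
    (by
      rintro (_ | i) g m j n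
      exacts [⟨0, by simp⟩, (b1 i g m j n).elim fun β k => ⟨_, em_coc k⟩])
    (by
      rintro (_ | i)
      exacts [⟨⊤, isOpen_univ, fun _ _ _ _ _ => rfl⟩, (b2 i).imp fun W k =>
        ⟨k.1, fun g m v n p => congrArg (em i) (k.2 g m v n p)⟩])
    (by
      obtain ⟨s, a1, a2, Q, a3, a4, a5, a6⟩ := rel
      refine ⟨s, a1, a2, Q, a3, a4, a5, ?_⟩
      rintro (_ | i) g - e
      exacts [a2 (nq o2 a3 e).symm, a6 i (nq (hι i).ov a3 e)])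
  have bij := bij R
  have k0 : ∀ y : Fin g → R, ac (dg (fun i => Nt (a (φ i)) (a (τ i)) (l i)) * w) y = 0 ↔
      ∀ i, (Nt (a (φ i)) (a (τ i)) (l i) * w.submatrix (Prod.mk i) id) *ᵥ y = 0 := fun y => by
    change _ *ᵥ y = 0 ↔ _
    simp only [← mulVec_mulVec, dg_mv]
    rfl
  have k1 : ∀ x ∈ Zs R Γ T a (fun o : Option ι => o.elim P2 P)
      (fun o g => o.elim 0 fun i => em i (b i g)),
      ∀ i, (fun c => x.2 (i, c)) = Sum.elim (x.1 (φ i)) (x.1 (τ i)) := fun x m i => by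
    have e := fun g n => (m.2.2.2.2 (some i) g ⟨(hι i).le n, n⟩).trans (em_mv i _ _)
    rw [e _ (hι i).mφ, e _ (hι i).mτ, b3, b4, fromCols_mulVec, fromCols_mulVec]
    ext (c | c) <;> simp
  have k2 := fun y (h1 : Q *ᵥ y = 0) h2 => (bij.1 (x := y) ⟨h1, (k0 y).2 h2⟩).1
  refine ⟨g, r, Q, fun i => w.submatrix (Prod.mk i) id, fun y γ => u γ *ᵥ y, by
    simp at crd; omega, ⟨fun y ⟨h1, h2⟩ => ?_, fun y ⟨h1, h2⟩ z ⟨h3, h4⟩ e => ?_,
      fun x ⟨X, h0⟩ => ?_⟩, fun y h1 h2 => k1 _ (k2 y h1 h2)⟩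
  · have m := k2 y h1 h2
    exact ⟨⟨m.1, m.2.1, m.2.2.1, m.2.2.2.1⟩, fun g n =>
      (m.2.2.2.2 none g ⟨d2 n, n⟩).trans (zero_mulVec _)⟩
  · refine bij.2.1 ⟨h1, (k0 y).2 h2⟩ ⟨h3, (k0 z).2 h4⟩ (Prod.ext e (funext fun ⟨i, c⟩ => ?_))
    exact (congrFun (k1 _ (k2 y h1 h2) i) c).trans
      ((congrArg (fun x : GQ → Fin 2 → R => Sum.elim (x (φ i)) (x (τ i)) c) e).trans
        (congrFun (k1 _ (k2 z h3 h4) i) c).symm)
  · have c := fun i => b5 i x X.coc (X.lc.imp fun W k => ⟨k.1, fun w _ => k.2 w⟩)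
    obtain ⟨y, ⟨h1, h2⟩, e⟩ := @bij.2.2 (x, fun z => Sum.elim (x (φ z.1)) (x (τ z.1)) z.2)
      ⟨⟨X.coc, X.out, X.lc, X.unr, by
        rintro (_ | i) g n
        exacts [(h0 g n.2).trans (zero_mulVec _).symm, ((c i).2 g n.2).trans
          (em_mv i _ fun z => Sum.elim (x (φ z.1)) (x (τ z.1)) z.2).symm]⟩,
      (dg_mv _ _).2 fun i => (c i).1⟩
    exact ⟨y, ⟨h1, (k0 y).1 h2⟩, congrArg Prod.fst e⟩

end Vale.Agent.P004F.Cn
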