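import Vale.Agent.P004F.Cn.Gen
import Vale.Agent.P004R.Dbl0

/-!
# P004F, block CNT: relaxing the two places above a split prime (helper25)
-/

set_option linter.all false

open NumberField Matrix PowerSeries
open scoped Classical Pointwise

noncomputable section

namespace Vale.Agent.P004F.Cn

open Vale.Agent.P022 Vale.Agent.P022K
open Vale.Agent.P027M.S (Inert)
open Vale.Agent.P022D.W (dec inP_le_dec phi_mem)
open Vale.Agent.P022E.GW (Ov Fb Gn)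
open Pr (ac ac_add ac_zero Gd Zs)

namespace On

variable {J : ℕ} {n s : Type} [Fintype n] [DecidableEq n] [Fintype s]

/-- the projection -/
abbrev mk (J : ℕ) : (ZMod 2)⟦X⟧ →+* Rb J := Ideal.Quotient.mk _

theorem mk_eq (x : (ZMod 2)⟦X⟧) : mk J x = 0 ↔ X ^ J ∣ x :=
  Ideal.Quotient.eq_zero_iff_mem.trans Ideal.mem_span_singleton

theorem lift (M : Matrix n n (Rb J)) : ∃ A : Matrix n n (ZMod 2)⟦X⟧, A.map (mk J) = M :=
  ⟨M.map (Function.surjInv Ideal.Quotient.mk_surjective), Matrix.ext fun _ _ =>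
    Function.surjInv_eq Ideal.Quotient.mk_surjective _⟩

theorem fin (J : ℕ) : Finite (Rb J) :=
  (Alg.ps_equiv (mk J) Ideal.Quotient.mk_surjective mk_eq).elim fun E => Finite.of_equiv _ E.symm

theorem low (A : Matrix n n (ZMod 2)⟦X⟧) {e : ℕ} (h : X ^ e ∣ A.det) (he : e ≤ J) :
    2 ^ e ≤ Nat.card {y : n → Rb J // A.map (mk J) *ᵥ y = 0} := by
  have := fin J
  exact (P004R.Db.low mk_eq e A 0 h he).trans (Nat.card_le_card_of_injective
    (fun y => ⟨y.1, y.2.1⟩) fun y z k => Subtype.ext (Subtype.mk.inj k))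

theorem crd (A : Matrix n n (ZMod 2)⟦X⟧) {e : ℕ} (h : X ^ e ∣ A.det) (h' : ¬ X ^ (e + 1) ∣ A.det)
    (he : e ≤ J) : Nat.card {y : n → Rb J // A.map (mk J) *ᵥ y = 0} = 2 ^ e :=
  le_antisymm (by
    simpa using (Alg.cnt_ps (mk J) Ideal.Quotient.mk_surjective mk_eq A).1 e h') (low A h he)

/-- multiplication of a square system by a matrix of known determinant -/
theorem sq {B e : ℕ} (M H : Matrix n n (Rb J)) {ε : Rb J} (hε : IsUnit ε)
    (hH : H.det = ε * mk J X ^ e) (hB : B + e < J) (h : Nat.card {y // M *ᵥ y = 0} ≤ 2 ^ B) :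
    Nat.card {y // (H * M) *ᵥ y = 0} = Nat.card {y // M *ᵥ y = 0} * 2 ^ e := by
  obtain ⟨A, rfl⟩ := lift M
  obtain ⟨C, rfl⟩ := lift H
  obtain ⟨η, rfl⟩ := Ideal.Quotient.mk_surjective ε
  have ex : ∃ k, ¬ X ^ (k + 1) ∣ A.det := ⟨B, fun d =>
    ((low A d (by omega)).trans h).not_gt (Nat.pow_lt_pow_right one_lt_two B.lt_succ_self)⟩
  have k1 := Nat.find_spec ex
  have k2 : X ^ Nat.find ex ∣ A.det := by
    rcases k : Nat.find ex with _ | m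
    · simp
    · exact not_not.1 (Nat.find_min ex (by omega))
  have k3 : Nat.find ex ≤ B := Nat.find_min' ex fun d =>
    ((low A d (by omega)).trans h).not_gt (Nat.pow_lt_pow_right one_lt_two B.lt_succ_self)
  generalize Nat.find ex = k at *
  obtain ⟨z, hz⟩ := (mk_eq (J := J) (C.det - η * X ^ e)).1 (by
    rw [map_sub, RingHom.map_det, map_mul, map_pow, ← hH, sub_eq_zero]; rfl)
  obtain ⟨m, rfl⟩ : ∃ m, J = e + (m + 1) := ⟨J - e - 1, by omega⟩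
  have hC : C.det = X ^ e * (η + X ^ (m + 1) * z) := by linear_combination hz
  have hη : ¬ X ∣ η + X ^ (m + 1) * z := fun d => by
    obtain ⟨w, rfl⟩ := (dvd_add_left ((dvd_pow_self X m.succ_ne_zero).mul_right z)).1 d
    obtain ⟨u, hu⟩ := hε.exists_right_inv
    have : mk (e + (m + 1)) (X ^ (e + m)) = 0 := by
      rw [← one_mul (mk _ _), ← hu, mul_right_comm, ← map_mul, mul_right_comm, ← pow_succ', map_mul,
        show Ideal.Quotient.mk _ (X ^ (e + m + 1)) = 0 from (mk_eq (J := e + (m + 1)) _).2 dvd_rfl,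
        zero_mul, zero_mul]
    rw [mk_eq, pow_dvd_pow_iff X_prime.ne_zero X_prime.not_isUnit] at this
    omega
  rw [← Matrix.map_mul, crd A k2 k1 (by omega), ← pow_add]
  refine crd _ ?_ (fun d => k1 ?_) (by omega)
  · rw [det_mul, hC, add_comm, pow_add]
    exact mul_dvd_mul (dvd_mul_right _ _) k2
  · rw [det_mul, hC, add_right_comm, add_comm, pow_add, mul_assoc,
      mul_dvd_mul_iff_left (pow_ne_zero _ X_prime.ne_zero)] at d
    exact X_prime.pow_dvd_of_dvd_mul_left _ hη d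

theorem stp {B e r g : ℕ} (Q : Matrix (Fin r) (Fin g) (Rb J)) (W : Matrix s (Fin g) (Rb J))
    (h : s → Rb J) (hc : r + Fintype.card s = g) {ε : Rb J} (hε : IsUnit ε)
    (hH : ∏ i, h i = ε * mk J X ^ e) (hB : B + e < J)
    (k : Nat.card {y // Q *ᵥ y = 0 ∧ W *ᵥ y = 0} ≤ 2 ^ B) :
    Nat.card {y // Q *ᵥ y = 0 ∧ ∀ i, h i * (W *ᵥ y) i = 0} =
      Nat.card {y // Q *ᵥ y = 0 ∧ W *ᵥ y = 0} * 2 ^ e := by
  let E : Fin g ≃ Fin r ⊕ s := Fintype.equivOfCardEq (by simp [hc])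
  have a1 : ∀ y, (fromRows Q W).submatrix E id *ᵥ y = fun i => Sum.elim (Q *ᵥ y) (W *ᵥ y) (E i) :=
    fun y => by rw [← fromRows_mulVec]; rfl
  have a2 : ∀ f : Fin r ⊕ s → Rb J, (fun i => f (E i)) = 0 ↔ ∀ i, f i = 0 := fun f =>
    funext_iff.trans (E.forall_congr_right (q := fun i => f i = 0))
  have c1 : Nat.card {y // Q *ᵥ y = 0 ∧ W *ᵥ y = 0} =
      Nat.card {y // (fromRows Q W).submatrix E id *ᵥ y = 0} :=
    Nat.card_congr (Equiv.subtypeEquivRight fun y => by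
      rw [a1, a2, Sum.forall, funext_iff, funext_iff]; rfl)
  rw [c1, ← sq _ (diagonal fun i => Sum.elim 1 h (E i)) hε (by
    rw [det_diagonal, E.prod_comp, Fintype.prod_sum_type, ← hH]; simp) hB (c1 ▸ k)]
  refine Nat.card_congr (Equiv.subtypeEquivRight fun y => ?_)
  rw [← mulVec_mulVec, a1, funext (mulVec_diagonal _ _),
    a2 fun i => Sum.elim (1 : Fin r → Rb J) h i * Sum.elim (Q *ᵥ y) (W *ᵥ y) i, Sum.forall, funext_iff]
  simp

variable {R : Type} [CommRing R] {Γ : Subgroup GQ} {T T₀ : Finset ℕ} {a : GQ → M2 R} {q : ℕ}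
  {P : Ideal (𝓞 Qb)} {c τ : GQ} {x : GQ → Fin 2 → R}

theorem unr (h2 : (2 : R) = 0) (G : Gd Γ T a) (o : Ov q P) (q2 : q ≠ 2) (le : dec P ≤ Γ)
    (a1 : ∀ g, Inert P g → a g = 1) (t : Gn q P τ) (X : Cc Γ T₀ a x) (e : x τ = 0) {h g : GQ}
    (m : h ∈ Γ) (hg : Inert (h • P) g) : x g = 0 := by
  have i : Inert P (h⁻¹ * g * h⁻¹⁻¹) := by simpa using GW.Pl.inert_conj hg h⁻¹
  obtain ⟨W, hW, w⟩ := X.lc
  obtain ⟨j, k⟩ := (P004S.lt q P o).1 τ 1 _ q2 t i W hW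
  rw [show g = h * (h⁻¹ * g * h⁻¹⁻¹) * h⁻¹ by group, Ra.x_conj G X m (le (inP_le_dec i)) (a1 _ i),
    k _ x (Ra.two_smul_zero (R := R) (by rw [pow_one, h2])) (fun g _ n => w g n) fun g j p p' => by
      rw [X.coc g (le (inP_le_dec p)) j (le (inP_le_dec p')), a1 g p, Ra.ac_one], e, smul_zero,
    ac_zero]

theorem nt (h2 : (2 : R) = 0) (od : Odd q) {A : M2 R} {u : R} (h : A - 1 = u • 1)
    (y : Fin 2 ⊕ Fin 2 → R) : Nt A 1 q *ᵥ y = 0 ↔ ∀ i, u * y (.inr i) = 0 := by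
  obtain ⟨k, rfl⟩ := od
  have : ∑ i ∈ Finset.range (2 * k + 1), (1 : M2 R) ^ i = 1 := by
    simp only [one_pow, Finset.sum_const, Finset.card_range]
    rw [← Nat.cast_smul_eq_nsmul R, Nat.cast_add, Nat.cast_mul, Nat.cast_ofNat, h2]
    simp
  rw [Nt, this, h, one_pow, sub_self, fromCols_mulVec, zero_mulVec, zero_add, smul_mulVec,
    one_mulVec, funext_iff]
  rfl

end On

open On in
/-- **step one** -/
theorem one0 (hp : PRESN) (hl : LOCT) {J B e q : ℕ} [IsLocalRing (Rb J)] (π : Rb J →+* ZMod 2)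
    {Γ : Subgroup GQ} {T T₀ : Finset ℕ} {a : GQ → M2 (Rb J)} (G : Gd Γ T a) {P2 : Ideal (𝓞 Qb)}
    (o2 : Ov 2 P2) (d2 : dec P2 ≤ Γ) {c : GQ} (hc : c ∉ Γ) (hq : q.Prime) (q2 : q ≠ 2)
    (hT : ∀ l, l ∈ T ↔ l ∈ T₀ ∨ l = q) (n0 : q ∉ T₀) (le : ∀ P, Ov q P → dec P ≤ Γ)
    (a1 : ∀ P, Ov q P → ∀ g, Inert P g → a g = 1)
    (af : ∀ P, Ov q P → ∀ g, Fb q P g → ∃ ε, IsUnit ε ∧ a g - 1 = (ε * mk J X ^ e) • 1)
    (rel : ∃ s ∈ T₀, s ≠ 2 ∧ ∃ Q, Ov s Q ∧ dec Q ≤ Γ ∧ ∀ g ∈ dec Q, (a g).map π = 1)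
    (hB : B + 4 * e < J) :
    {x | Cc Γ T a x ∧ ∀ g ∈ dec P2, x g = (0 : Fin 2 → Rb J)}.Finite ∧
    (Nat.card {x | Cc Γ T₀ a x ∧ ∀ g ∈ dec P2, x g = (0 : Fin 2 → Rb J)} ≤ 2 ^ B →
    Nat.card {x | Cc Γ T a x ∧ ∀ g ∈ dec P2, x g = (0 : Fin 2 → Rb J)} =
      Nat.card {x | Cc Γ T₀ a x ∧ ∀ g ∈ dec P2, x g = (0 : Fin 2 → Rb J)} * 2 ^ (4 * e)) := by
  have := fin J
  have h2 : (2 : Rb J) = 0 := by
    rw [← map_ofNat ((mk J).comp C) 2, show (OfNat.ofNat 2 : ZMod 2) = 0 from rfl, map_zero]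
  obtain ⟨P0, o0⟩ := GW.Pl.ex_ov hq
  let P : Bool → Ideal (𝓞 Qb) := fun i => cond i (c • P0) P0
  have o : ∀ i, Ov q (P i) := by rintro (_ | _); exacts [o0, GW.ov_smul o0 c]
  choose φ hφ using fun i => P022D.W.exists_phi hq (o i).2.1 (o i).2.2
  choose τ hτ using fun i => P022E.GW.Tg.ex_gn' (o i)
  choose ε ε1 ε2 using fun i => af _ (o i) _ (hφ i)
  obtain ⟨g, r, Q, w, F, hc', bij, hw⟩ := gen hp hl π h2 G o2 d2 (fun _ => q) P φ τ
    (fun _ => (hT q).2 (.inr rfl)) (fun i => ⟨q2, o i, hφ i, hτ i, le _ (o i), fun g m =>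
      ⟨0, by rw [a1 _ (o i) g m, one_pow]⟩⟩)
    (by
      rintro (_ | _) (_ | _) g m e
      · rfl
      · exact (hc ((Γ.mul_mem_cancel_left (inv_mem m)).1 (le _ o0 ((GW.Pl.dec_iff _ _).2 (by
          rw [mul_smul, inv_smul_eq_iff]; exact e))))).elim
      · exact (hc ((Γ.mul_mem_cancel_left m).1 (le _ o0 ((GW.Pl.dec_iff _ _).2 (by
          rw [mul_smul]; exact e.symm))))).elim
      · rfl)
    (by
      obtain ⟨s, s1, s2, Q, s3, s4, s5⟩ := rel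
      exact ⟨s, (hT s).2 (.inl s1), s2, Q, s3, s4, s5, fun _ k => n0 (k ▸ s1)⟩)
  refine ⟨(Set.toFinite _).of_surjOn F bij.2.2, fun h => ?_⟩
  let W : Matrix (Bool × Fin 2) (Fin g) (Rb J) := .of fun i => w i.1 (.inr i.2)
  have k1 : ∀ y, (∀ i, (Nt (a (φ i)) (a (τ i)) q * w i) *ᵥ y = 0) ↔
      ∀ i : Bool × Fin 2, ε i.1 * mk J X ^ e * (W *ᵥ y) i = 0 := fun y => by
    rw [Prod.forall]
    refine forall_congr' fun i => ?_
    rw [← mulVec_mulVec, a1 _ (o i) _ (hτ i).1, nt h2 (hq.odd_of_ne_two q2) (ε2 i)]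
    rfl
  have k2 : ∀ y, W *ᵥ y = 0 → ∀ i, (Nt (a (φ i)) (a (τ i)) q * w i) *ᵥ y = 0 := fun y k =>
    (k1 y).2 fun i => by rw [k, Pi.zero_apply, mul_zero]
  have b0 : Set.BijOn F {y | Q *ᵥ y = 0 ∧ W *ᵥ y = 0}
      {x | Cc Γ T₀ a x ∧ ∀ g ∈ dec P2, x g = (0 : Fin 2 → Rb J)} := by
    refine ⟨fun y ⟨y1, y2⟩ => ?_, bij.2.1.mono fun y m => And.intro m.1 (k2 y m.2), fun x ⟨X, x0⟩ => ?_⟩
    · obtain ⟨X, x0⟩ := @bij.1 y ⟨y1, k2 y y2⟩
      refine ⟨⟨X.coc, X.out, X.lc, fun j ⟨l, n, P', o', i⟩ => ?_⟩, x0⟩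
      by_cases k : l = q
      swap
      · exact X.unr j ⟨l, fun m => ((hT l).1 m).elim n k, P', o', i⟩
      have u := fun i => @unr _ _ _ _ _ _ _ _ _ _ h2 G (o i) q2 (le _ (o i)) (a1 _ (o i)) (hτ i) X
        (funext fun s => (congrFun (hw y y1 (k2 y y2) i) (.inr s)).symm.trans (congrFun y2 (i, s)))
      obtain ⟨t, rfl⟩ := GW.Pl.ov_trans o0 (k ▸ o')
      by_cases m : t ∈ Γ
      · exact u false m i
      · exact u true (Ra.mul_out G m (h := c⁻¹) (by simpa using hc))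
          (show Inert ((t * c⁻¹) • c • P0) j by rwa [mul_smul, inv_smul_smul])
    · obtain ⟨y, ⟨y1, y2⟩, rfl⟩ := @bij.2.2 x ⟨⟨X.coc, X.out, X.lc,
        fun j ⟨l, n, i⟩ => X.unr j ⟨l, fun m => n ((hT l).2 (.inl m)), i⟩⟩, x0⟩
      exact ⟨y, ⟨y1, funext fun i => (congrFun (hw y y1 y2 i.1) (.inr i.2)).trans
        (congrFun (X.unr _ ⟨q, n0, _, o i.1, (hτ i.1).1⟩) i.2)⟩, rfl⟩
  rw [← Nat.card_congr b0.equiv] at h ⊢
  rw [← Nat.card_congr bij.equiv]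
  refine (Nat.card_congr (Equiv.subtypeEquivRight fun y => and_congr_right fun _ => k1 y)).trans
    (stp Q W (fun i => ε i.1 * mk J X ^ e) (by simpa using hc')
      (((ε1 true).mul (ε1 false)).pow 2) ?_ hB h)
  simp only [Fintype.prod_prod_type, Fintype.prod_bool, Fin.prod_univ_two]
  ring

end Vale.Agent.P004F.Cn
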